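import Vale.Agent.P159.H159.Q1

open Filter Topology Vale.Agent.P159

namespace Vale.Agent.Results.P159.CriticalCorrelation

/-- The square-lattice XY model at its critical point: the two-point function along an axis is
asymptotic to a positive constant times `r ^ (-1/4) * (log r) ^ (1/8)`. -/
theorem result :
    ∃ A : ℝ, 0 < A ∧ Tendsto (fun r : ℕ => corrInf bCrit ((r : ℤ), 0) /
      ((r : ℝ) ^ (-(1 / 4) : ℝ) * Real.log r ^ (1 / 8 : ℝ))) atTop (𝓝 A) :=
  Vale.Agent.P159.H159.q1

end Vale.Agent.Results.P159.CriticalCorrelation
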