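import Vale.Agent.P159.H282.LsV
import Vale.Agent.P159.H282.Ls9
import Vale.Agent.P159.H415.Ls6d

/-!
P159: the critical XY model on the square lattice, sharp logarithms.  The stiffness of the blocks at
the critical point, an upper bound of the two-point function of the predicted order, and upper
bounds of the correlation length and of the susceptibility below the critical point.
-/

open Filter Topology Vale.Agent.P159

namespace Vale.Agent.Results.P159.SharpLogarithms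

theorem result :
    -- the excess of the stiffness at the critical point
    Tendsto (fun L : ℕ => Real.log L * (stiff L bCrit - 2 / Real.pi)) atTop (𝓝 (1 / Real.pi)) ∧
    -- the sum of the excesses over the dyadic scales
    (∃ l : ℝ, Tendsto (fun N : ℕ => ∑ j ∈ Finset.range N, (stiff (2 ^ j) bCrit - 2 / Real.pi) -
      1 / (Real.pi * Real.log 2) * Real.log N) atTop (𝓝 l)) ∧
    -- the two-point function at the critical point
    (∃ K : ℝ, 0 < K ∧ ∀ x : ℤ × ℤ, 2 ≤ max |x.1| |x.2| → corrInf bCrit x ≤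
      K * ((max |x.1| |x.2| : ℤ) : ℝ) ^ (-(1 / 4 : ℝ)) *
        Real.log ((max |x.1| |x.2| : ℤ) : ℝ) ^ (1 / 8 : ℝ)) ∧
    -- the correlation length and the susceptibility
    (∃ C η : ℝ, 0 < C ∧ 0 < η ∧ ∀ b : ℝ, bCrit - η < b → b < bCrit →
      Real.log (corrLength b) ≤ C * (1 / (bCrit - b) * Real.log (1 / (bCrit - b)) ^ 2) ∧
      Real.log (∑' x : ℤ × ℤ, corrInf b x) ≤
        C * (1 / (bCrit - b) * Real.log (1 / (bCrit - b)) ^ 2)) ∧
    -- the vortex ratio at the critical point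
    (∃ c κ : ℝ, 0 < c ∧ 0 < κ ∧ ∀ n : ℕ, 1 ≤ n →
      c * (n : ℝ) ^ (-κ) ≤ vortexRatio (2 ^ n) bCrit) ∧
    -- the number of dyadic scales on which the stiffness stays close to `2 / π`
    (∃ C d : ℝ, 0 < C ∧ 0 < d ∧ ∀ b : ℝ, 0 < b → b ≤ bCrit →
      ∀ (N0 N : ℕ) (δ : ℝ), 0 < δ → δ ≤ 1 → stiff (2 ^ N0) b ≤ 2 / Real.pi - δ →
        2 / Real.pi - d ≤ stiff (2 ^ N) b →
        (N : ℝ) ≤ 2 * N0 + C * (1 / δ) * (1 + Real.log (1 / δ)) *
          (1 + ∑ j ∈ Finset.range N0, max (stiff (2 ^ j) b - 2 / Real.pi) 0)) := by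
  obtain ⟨x, C, s, h⟩ := Vale.Agent.P159.H282.Ls.shp_bc
  obtain ⟨g1, g2, g3, g4, ⟨KT, g5⟩, ⟨Kx, g6⟩⟩ := Vale.Agent.P159.H415.Ls.sharp_all h
  exact ⟨g1, g2, g3, Vale.Agent.P159.UJ.H282.Ex.xi_sharp g5 g6, g4,
    Vale.Agent.P159.UJ.H282.Ex.exit_b⟩

end Vale.Agent.Results.P159.SharpLogarithms
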