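import Vale.Agent.P159.H282.Crit

/-!
P159: the critical XY model on the square lattice. The stiffness of the blocks at the critical
point approaches the universal jump `2 / π` at most logarithmically fast in the mean.
-/

open Filter Topology Vale.Agent.P159

namespace Vale.Agent.Results.P159.StiffnessAtCriticality

theorem result :
    -- the drops of the stiffness are bounded below by the square of the vortex ratio
    (∀ B t : ℝ, 0 < B → 0 < t → ∃ (C : ℝ) (q : ℕ), 1 ≤ C ∧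
      ∀ b : ℝ, 0 < b → b ≤ B → ∀ l m L : ℕ, 1 ≤ l → t ≤ stiff l b →
        0 < vortexRatio (l * m) b ∧ vortexRatio (l * m) b ≤ 1 ∧
        (C * (1 - Real.log (vortexRatio (l * m) b)) ^ q ≤ m →
          C * (1 - Real.log (vortexRatio (l * m) b)) ^ q * ((l * m : ℕ) : ℝ) ≤
            L * vortexRatio (l * m) b ^ 2 →
          vortexRatio (l * m) b ^ 2 / (C * (1 - Real.log (vortexRatio (l * m) b)) ^ q) ≤
            stiff l b - stiff L b)) ∧
    -- at the critical point: lower bounds of the vortex ratio and of the excess of the stiffness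
    (∃ c C : ℝ, 0 < c ∧ 0 < C ∧ ∀ n : ℕ,
      c * Real.exp (-(C * ∑ i ∈ Finset.range n, (stiff (2 ^ i) bCrit - 2 / Real.pi))) ≤
        vortexRatio (2 ^ n) bCrit ∧
      c * Real.exp (-(C * ∑ i ∈ Finset.range n, (stiff (2 ^ i) bCrit - 2 / Real.pi))) ≤
        stiff (2 ^ n) bCrit - 2 / Real.pi) ∧
    -- the sum of the excesses over the dyadic scales
    (∃ κ : ℝ, 0 < κ ∧ ∀ᶠ N : ℕ in atTop,
      κ * Real.log N ≤ ∑ i ∈ Finset.range N, (stiff (2 ^ i) bCrit - 2 / Real.pi)) ∧
    -- infinitely many scales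
    (∃ κ : ℝ, 0 < κ ∧ ∃ᶠ L : ℕ in atTop, κ / Real.log L ≤ stiff L bCrit - 2 / Real.pi) ∧
    -- all scales
    (∀ ε : ℝ, 0 < ε → ∃ c : ℝ, 0 < c ∧ ∀ L : ℕ, 1 ≤ L →
      c * (L : ℝ) ^ (-ε) ≤ stiff L bCrit - 2 / Real.pi) :=
  ⟨Vale.Agent.P159.UJ.H282.drops, Vale.Agent.P159.UJ.H282.crit⟩

end Vale.Agent.Results.P159.StiffnessAtCriticality
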